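import Crest.Agent.X212.Twf19.Px
import Crest.Agent.X212.Tw55.Bas
import Crest.Agent.X212.M.Twd

/-!
# Row 212, twins (helper19): **TW-FAM**, twin families exist
-/

set_option autoImplicit false
set_option linter.unusedSectionVars false
noncomputable section
open scoped Manifold ContDiff Topology Matrix
open Set Function

namespace Crest.Agent.X212.Twf19
open An M G75 Jb7 Wrd81 Ins26 Nat75 Rf65 Tw55
open An.Job (cl sp)
open Line51 (rl)
open Eqv71 (TmR)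
open Cnt93 (TcR)

variable {κ lam : Type} [Fintype κ] [Fintype lam] [DecidableEq lam] {Lm : LM κ lam}
  {S S' : Scene Lm} {r n : ℕ}

/-! ### separated terms -/

section sep
variable {W W' X h A' : Type}

/-- no index carries both a term and a term of a cut -/
def TSep (t : Tr W X lam h A' r n) : Prop := ∀ w, t.co w = 0 ∨ ∀ l, t.cc l w = 0

theorem TSep.sum {t : Tr W X lam h A' r n} {t' : Tr W' X lam h A' r n} (k : TSep t) (k' : TSep t') :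
    TSep (t.sum t') := Sum.rec k k'

theorem TSep.rx {t : Tr W' X lam h A' r n} (k : TSep t) (g : W → W') (c : W → ℝ) : TSep (rx t g c) :=
  fun w => (k (g w)).imp (fun e => funext fun s => mul_eq_zero_of_right _ (congrFun e s))
    fun e l => funext fun s => mul_eq_zero_of_right _ (congrFun (e l) s)

theorem sep_std (X : Finset S.A) : TSep (stdT S X r n) := fun w => by
  cases w
  exacts [.inr fun _ => rfl, .inr fun _ => rfl, .inl rfl]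

end sep

/-! ### parameters -/

section par
variable {X : Finset S.A} {X' : Finset S'.A} {s : S.A ⊕ Unit → ℝ} {s' : S'.A ⊕ Unit → ℝ} {a : S.A}
  {a' : S'.A}

theorem thX_zero (h : s (.inl a) = 0) : thX S X s a = 0 := by
  by_cases k : a ∈ hard S X
  exacts [(thS_H (notMem_empty _) k).trans (rho_of_le h.le), thS_out (notMem_empty _) k]

theorem thX_congr (h : a' ∈ hard S' X' ↔ a ∈ hard S X) (e : s' (.inl a') = s (.inl a)) :
    thX S' X' s' a' = thX S X s a := by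
  by_cases k : a ∈ hard S X
  · exact (thS_H (notMem_empty _) (h.2 k)).trans ((congrArg rho e).trans (thS_H (notMem_empty _) k).symm)
  · exact (thS_out (notMem_empty _) (mt h.1 k)).trans (thS_out (notMem_empty _) k).symm

theorem exists_lay (ok : S.OK) {i R θ ϖ} (h : RW S i R θ ϖ) : Disjoint {R} S.fz ∧
    ∃ c : S.M.Cl, ∀ a ∈ hard S {R}, ¬S.M.pin a → a ∈ c.1 :=
  ⟨Finset.disjoint_singleton_left.2 fun k => Hp13.Tw.not_sub R true (h.fz R k),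
    ⟨insert R ↑S.ls, pairwise_insert.2 ⟨fun a ha b hb e =>
      (ok.lsd a ha b hb e).mono subset_union_right subset_union_right,
      fun a ha _ => ⟨h.cmp a ha, (h.cmp a ha).symm⟩⟩⟩, fun _ k p => k.elim (p · |>.elim)
      fun k => k.elim .inr fun k => .inl (Finset.mem_singleton.1 k)⟩

end par

/-! ### the terms of both scenes -/

namespace Px
variable {A₀ L₀ : Type} [Fintype A₀] (x : Px S S' A₀ L₀) (X : Finset S.A) (X' : Finset S'.A) (i : L₀)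

/-- the terms on the left -/
abbrev tl (r n : ℕ) := (stdT S X r n).sum (x.symm.tr (r := r) (n := n) X (x.ι i))

/-- the terms on the right -/
abbrev tt (r n : ℕ) := (stdT S' X' r n).sum (x.tr (r := r) (n := n) X' (x.ι' i))

variable {x X X'} {s : S.A ⊕ Unit → ℝ} {s' : S'.A ⊕ Unit → ℝ}
  (p : Mp x.I.f x.I.f' (thX S X s) (thX S' X' s')) (ht : thX S X s ∈ S.M.sys.Par)
  (ht' : thX S' X' s' ∈ S'.M.sys.Par) (h1 : thX S X s (x.I.f x.R) = 1)
include p ht ht' h1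

theorem tt_co (w : SW S r n ⊕ SW S' r n) :
    (x.tt X' i r n).co w.swap s' = (x.tl X i r n).co w s ∧ ((x.tl X i r n).co w s ≠ 0 →
      TmR x.V x.I.ψ (fun y => rl (x.w i y)) ((x.tl X i r n).tw w) ((x.tt X' i r n).tw w.swap)) ∨
    ((x.tl X i r n).co w s = 0 ∨ ((x.tl X i r n).tw w).Van x.V) ∧
      ((x.tt X' i r n).co w.swap s' = 0 ∨ ((x.tt X' i r n).tw w.swap).Van x.symm.V) := by
  rw [tt, tl, tr_eq, show x.ι i = x.symm.ι' i from rfl, tr_eq]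
  cases w with
  | inl w =>
    exact (co_key p ht h1 i w).imp (And.imp_right fun k c => Eq.subst
      (motive := TmR x.V x.I.ψ (fun y => rl (x.w i y)) _) (k c).symm ((x.tp_rel i).tm _))
      (And.imp_right fun k => .inl (mul_eq_zero_of_left k _))
  | inr w =>
    exact (co_key (x := x.symm) p.symm ht' ((p.eq _).trans h1) i w).imp
      (fun k => ⟨k.1.symm, fun c => Eq.subst (motive := (TmR x.V x.I.ψ (fun y => rl (x.w i y)) · _))
        (k.2 (k.1.symm.trans_ne c)).symm ((x.tp_relI i).tm _)⟩)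
      fun k => ⟨.inl (mul_eq_zero_of_left k.2 _), k.1⟩

theorem tt_cc {a : A₀} (h : x.I.f a ∈ S.ls) (h' : x.I.f' a ∈ S'.ls) (w : SW S r n ⊕ SW S' r n) :
    (x.tt X' i r n).cc ⟨_, h'⟩ w.swap s' = (x.tl X i r n).cc ⟨_, h⟩ w s ∧
      ((x.tl X i r n).cc ⟨_, h⟩ w s ≠ 0 → TcR x.V x.I.ψ (fun y => rl (x.w i y))
        ((x.tl X i r n).tc ⟨_, h⟩ w) ((x.tt X' i r n).tc ⟨_, h'⟩ w.swap)) := by
  rw [tt, tl, tr_eq, show x.ι i = x.symm.ι' i from rfl, tr_eq]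
  cases w with
  | inl w =>
    exact (cc_key p ht h1 i h h' w).imp_right fun k c =>
      Eq.subst (motive := TcR x.V x.I.ψ (fun y => rl (x.w i y)) _) (k c).symm (rel_tc (x.tp_rel i) _)
  | inr w =>
    have k := cc_key (x := x.symm) p.symm ht' ((p.eq _).trans h1) i h' h w
    exact ⟨k.1.symm, fun c => Eq.subst (motive := (TcR x.V x.I.ψ (fun y => rl (x.w i y)) · _))
      (k.2 (k.1.symm.trans_ne c)).symm ((x.tp_relI i).tc _)⟩

end Px

/-! ### twin scenes -/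

variable {V : Set S.X.M} {m : Mt S S' V} {R₀ : Ao m} {i₀ : m.L₀} {e : Bool → S.A}

/-- the correspondence outside `R₀` -/
def px (H : Tw1 m R₀ i₀ e) : Px S S' (Ao m) m.L₀ where
  I := Io m
  R := R₀
  ι := m.ι
  ι' := m.ι'
  w := m.w
  lc := H.lc
  lid i := ((m.lid i).re _).mono ((S.M.sys.w _).op_sd true) H.sub
  ls := H.ls_iff
  lo _ h := subset_union_left.trans (H.hf_out h)
  lo' _ h := let ⟨_, _, _, _, _, k⟩ := H.ds; subset_union_left.trans (k.ls _ h)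
  fl a h i := have k := m.hfl a.1 (Tw1.mem_ls ((H.ls_iff a).2 h)) i
    ⟨_, k.1, k.2.1, k.2.2.2.1.mono (inter_subset_inter H.sub subset_union_left)⟩

theorem hard_iff (H : Tw1 m R₀ i₀ e) (a : Ao m) :
    (Io m).f' a ∈ hard S' {(Io m).f' R₀} ↔ (Io m).f a ∈ hard S {(Io m).f R₀} :=
  or_congr ((Io m).pin a) (or_congr (H.ls_iff a) (by
    rw [Finset.mem_singleton, Finset.mem_singleton, (Io m).f.apply_eq_iff_eq, (Io m).f'.apply_eq_iff_eq]))

theorem mp (H : Tw1 m R₀ i₀ e) {τ : Finset (Ao m)} {s} (hs : s ∈ sp (ce0 (τ.map (Io m).f))) :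
    Mp (Io m).f (Io m).f' (thX S {(Io m).f R₀} s) (thX S' {(Io m).f' R₀} (tr (Io m).f (Io m).f' s)) :=
  ⟨fun a => thX_congr (hard_iff H a) (tr_f a), fun a k => thX_zero ((mem_sp.1 hs).1 a fun c =>
    let ⟨b, _, c⟩ := Finset.mem_map.1 c; k ⟨b, c⟩), fun _ k => thX_zero (tr_out k)⟩

/-- **TW-FAM** -/
theorem fam (hc : CutOK Lm) (hd : DatStmt Lm) : FamStmt Lm := by
  intro S S' V m R₀ e j N d C P ⟨i₀, σ₀, h₀⟩ hC hP T hT
  have H := (hC i₀ σ₀ h₀).1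
  obtain ⟨_, _, _, _, _, k⟩ := H.ds
  obtain ⟨D, D', p, met, con⟩ := M.dat_tw m hd (.subtype _ : Ao m ↪ _) R₀.1 i₀ H.hV H.img k.ls H.ok H.ok' hP
  obtain ⟨_, _, w⟩ := H.rwi.rw
  obtain ⟨hX, c, hm⟩ := exists_lay H.ok w
  obtain ⟨hX', c', hm'⟩ := exists_lay H.ok' k.toRW
  have pe : ∀ b, S.M.pin (e b) := fun b => (H.rwi.pin (e b) (by cases b <;> simp)).1
  let C₁ : S.L → Set (Finset S.A) := fun i₁ =>
    {τ | ∃ i, ∃ σ ∈ C i, ∃ b, i₁ = m.ι i ∧ τ = insert (e b) (σ.map (Io m).f)}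
  let C₂ : S'.L → Set (Finset S'.A) := fun i₁ => {τ | ∃ i, ∃ σ ∈ C i, i₁ = m.ι' i ∧ τ = σ.map (Io m).f'}
  have h₁ : ∀ i, ∀ σ ∈ C₁ i, σ ∈ S.K i ∧ Br55.NC S i σ ∧ ↑σ ⊆ hard S {(Io m).f R₀} ∧
      (-(d + 1 : ℕ) : ℤ) + σ.card ≤ 1 := by
    rintro _ _ ⟨i, σ, h, b, rfl, rfl⟩
    obtain ⟨-, -, a1, a2, a3, -⟩ := hC i σ h
    refine ⟨(a3 b).1, (a3 b).2, fun a ha => ?_, ?_⟩
    · rcases Finset.mem_insert.1 ha with rfl | ha
      · exact .inl (pe b)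
      · obtain ⟨a, hb, rfl⟩ := Finset.mem_map.1 ha
        rcases a2 a hb with rfl | q | q
        exacts [.inr (.inr (Finset.mem_singleton_self _)), .inl q, .inr (.inl q.1)]
    · have := Finset.card_insert_le (e b) (σ.map (Io m).f)
      rw [Finset.card_map] at this
      omega
  have h₂ : ∀ i, ∀ σ ∈ C₂ i, σ ∈ S'.K i ∧ Br55.NC S' i σ ∧ ↑σ ⊆ hard S' {(Io m).f' R₀} ∧
      (-d : ℤ) + σ.card ≤ 1 := by
    rintro _ _ ⟨i, σ, h, rfl, rfl⟩
    obtain ⟨-, -, a1, a2, -, a3, a4⟩ := hC i σ h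
    refine ⟨a3, a4, fun a ha => ?_, by rw [Finset.card_map]; omega⟩
    obtain ⟨a, hb, rfl⟩ := Finset.mem_map.1 ha
    rcases a2 a hb with rfl | q | q
    exacts [.inr (.inr (Finset.mem_singleton_self _)), .inl (((Io m).pin a).2 q), .inr (.inl q.2)]
  let F := exF S j N D {(Io m).f R₀} c (-(d + 1 : ℕ)) C₁ T
  let F' := exF S' j N D' {(Io m).f' R₀} c' (-d) C₂ T
  have K : ∀ i, (F.sk i).OK := (exF_pre H.ok hX hm h₁ hT).sk H.ok hc
  have K' : ∀ i, (F'.sk i).OK := (exF_pre H.ok' hX' hm' h₂ hT).sk H.ok' hc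
  have o : (re F F.𝒦 ((px H).symm.tr F.X)).OK T := by
    refine Px.add_ok H.ok (exF_ok H.ok hX hm h₁ hT hc) K ?_
    rintro _ _ ⟨_, ⟨i, σ, -, b, rfl, rfl⟩, τ, t, rfl⟩
    refine ⟨⟨i, rfl⟩, fun l hl q => ?_⟩
    rcases Finset.mem_insert.1 (t (by_contra fun n => q (if_neg n) : l ∈ τ)) with rfl | q
    · exact (H.ok.lsp _ hl (pe b)).elim
    · exact let ⟨a, _, q⟩ := Finset.mem_map.1 q; ⟨a, q⟩
  have o' : (re F' F'.𝒦 ((px H).tr F'.X)).OK T := by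
    refine Px.add_ok H.ok' (exF_ok H.ok' hX' hm' h₂ hT hc) K' ?_
    rintro _ _ ⟨_, ⟨i, σ, -, rfl, rfl⟩, τ, -, rfl⟩
    exact ⟨⟨i, rfl⟩, fun l hl _ => let ⟨a, q, _⟩ := H.ls_r hl; ⟨a, q⟩⟩
  have m₁ : ∀ i, ∀ σ ∈ C i, ∀ b, ce0 (insert (e b) (σ.map (Io m).f)) ∈ F.𝒦 (m.ι i) :=
    fun i σ h b => ⟨_, ⟨i, σ, h, b, rfl, rfl⟩, _, subset_rfl, rfl⟩
  have m₂ : ∀ i, ∀ σ ∈ C i, ∀ τ ⊆ σ, ce0 (τ.map (Io m).f') ∈ F'.𝒦 (m.ι' i) :=
    fun i σ h τ t => ⟨_, ⟨i, σ, h, rfl, rfl⟩, _, Finset.map_subset_map.2 t, rfl⟩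
  have m₃ : ∀ i, ∀ σ₁ ∈ F.𝒦 (m.ι i), ∃ σ ∈ C i, ∃ b, ∃ τ ⊆ insert (e b) (σ.map (Io m).f), σ₁ = ce0 τ := by
    rintro i _ ⟨_, ⟨i₁, σ, h, b, q, rfl⟩, τ, t, rfl⟩
    obtain rfl := m.ι.injective q
    exact ⟨σ, h, b, τ, t, rfl⟩
  refine ⟨_, _, (Equiv.sumComm _ _).toEmbedding, o, o', p, fun i => (sep_std _).sum ((sep_std _).rx _ _),
    fun i => (sep_std _).sum ((sep_std _).rx _ _), ?_, ?_, fun i σ h =>
    ⟨m₁ i σ h, m₂ i σ h σ subset_rfl, (hC i σ h).1, o, o', rfl, rfl, rfl, rfl, fun σ₁ q => ?_,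
      ⟨_, m₁ i σ h true⟩, fun _ _ => rfl, met, con i, fun τ q s hs e1 => ?_⟩⟩
  · rintro _ _ ⟨_, ⟨i, σ, h, b, rfl, rfl⟩, τ, t, rfl⟩
    exact ⟨i, σ, h, b, τ, t, rfl, rfl⟩
  · rintro _ _ ⟨_, ⟨i, σ, h, rfl, rfl⟩, τ, t, rfl⟩
    exact ⟨i, σ, h, τ, t, rfl, rfl⟩
  · obtain ⟨σ, h, b, τ, t, rfl⟩ := m₃ i σ₁ q
    exact ⟨σ, b, (hC i σ h).2.1, τ, t, rfl, m₁ i σ h b, m₂ i σ h σ subset_rfl⟩
  · obtain ⟨σ, h, b, τ₁, t, q'⟩ := m₃ i _ q
    obtain rfl := Nat75.cel_inj q'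
    have q₂ := m₂ i σ h τ fun a ha => (Finset.mem_insert.1 (t (Finset.mem_map_of_mem _ ha))).elim
      (fun c => (H.e_out b ⟨a, c⟩).elim) (Finset.mem_map' _).1
    have ht := (th_X (K _) (r := 0) (n := 0)).par _ q s (Job.cl_dom _ hs)
    have ht' := (th_X (K' _) (r := 0) (n := 0)).par _ q₂ _ (Job.cl_dom _ (tr_cl hs))
    have h1 : thX S {(Io m).f R₀} s ((Io m).f R₀) = 1 := (thS_H (notMem_empty _)
      (.inr (.inr (Finset.mem_singleton_self _)))).trans ((rho_eq_one e1.le).2 e1)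
    exact ⟨Px.tt_co (x := px H) i (mp H hs.1) ht ht' h1, fun _ => Px.tt_cc (x := px H) i (mp H hs.1) ht ht' h1,
      fun v n => (n ⟨v.swap, Sum.swap_swap v⟩).elim⟩

end Crest.Agent.X212.Twf19
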