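import Crest.Agent.X212.Hp13.TwA
import Crest.Agent.X212.Jb7.Ex

/-!
# Row 212, twins (helper19): coefficients of outer regions, reindexed families of terms
-/

set_option autoImplicit false
set_option linter.unusedSectionVars false
noncomputable section
open Set Function Classical

namespace Crest.Agent.X212.Twf19
open An M M.Sys Nat75 Jb7 Hp13.Tw

section sys
variable {X X' : Type} [TopologicalSpace X] [TopologicalSpace X'] {A A' A₀ : Type} [Fintype A]
  [Fintype A'] [Fintype A₀] {S : Sys X A} {S' : Sys X' A'} {f : A₀ ↪ A} {f' : A₀ ↪ A'}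
  {φ : PartialEquiv X X'} {R : A₀} {ρ : Reg A} {k : ℕ} {t : A → ℝ} {t' : A' → ℝ}

variable (S ρ k) in
/-- one factor of `cg` -/
def fac (a : A) (x : ℝ) : ℝ :=
  (if a ∈ bd ρ then x else if a ∈ S.inn ρ then expNegInvGlue (1 - x) else 1) *
    if a ∈ S.inn ρ then expNegInvGlue (1 - 1 / (k + 2) - x) else 1

variable (S f ρ k) in
/-- the factors of the unmatched walls -/
def K : ℝ := ∏ a ∈ (Finset.univ.map f)ᶜ, fac S ρ k a 0

theorem cg_fac (h : ∀ a ∉ range f, t a = 0) :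
    cg S ρ k t = (∏ a, fac S ρ k (f a) (t (f a))) * K S f ρ k := by
  rw [cg, cf, ← Finset.prod_mul_distrib, ← Finset.prod_mul_prod_compl (Finset.univ.map f),
    Finset.prod_map]
  exact congrArg _ (Finset.prod_congr rfl fun a ha => by rw [h a (by simpa using ha)]; rfl)

theorem K_ne (h : bd ρ ⊆ range f) : K S f ρ k ≠ 0 := Finset.prod_ne_zero_iff.2 fun a ha => by
  have e : (0 : ℝ) < 1 - 1 / (k + 2) - 0 := by
    rw [sub_zero, sub_pos, div_lt_one (by positivity)]; linarith [Nat.cast_nonneg (α := ℝ) k]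
  rw [fac, if_neg fun e => let ⟨b, hb⟩ := h e; Finset.mem_compl.1 ha (by simp [← hb])]
  split_ifs
  exacts [mul_ne_zero (expNegInvGlue.pos_of_pos (by simp)).ne' (expNegInvGlue.pos_of_pos e).ne',
    by simp]

variable (f f' t t') in
/-- matched parameters -/
structure Mp : Prop where
  eq : ∀ a, t' (f' a) = t (f a)
  z : ∀ a ∉ range f, t a = 0
  z' : ∀ a ∉ range f', t' a = 0

theorem Mp.symm (h : Mp f f' t t') : Mp f' f t' t := ⟨fun a => (h.eq a).symm, h.z', h.z⟩

theorem bd_pl : bd (pl f' f ρ) ⊆ range f' := fun _ => pl_bd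

variable [ConnectedSpace X] [ConnectedSpace X']

theorem cg_pl (h : LC S S' f f' φ R) (b : bd ρ ⊆ range f) (p : Mp f f' t t') :
    K S f ρ k / K S' f' (pl f' f ρ) k * cg S' (pl f' f ρ) k t' = cg S ρ k t := by
  rw [cg_fac p.z, cg_fac p.z', mul_comm, mul_assoc, mul_div_cancel₀ _ (K_ne bd_pl)]
  refine congrArg (· * _) (Finset.prod_congr rfl fun a _ => ?_)
  simp only [fac, h.inn b, p.eq, show f' a ∈ bd (pl f' f ρ) ↔ f a ∈ bd ρ by simp only [bd, mem_ofPred_eq, pl_f]]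

variable (S f R ρ) in
/-- regions outside `R` with matched boundary -/
structure Out : Prop where
  bd : bd ρ ⊆ range f
  cl : S.Cell (insert (f R) (Sys.bd ρ))
  sub : S.U ρ ⊆ (S.w (f R)).sd true

theorem Out.cc (o : Out S f R ρ) (h : LC S S' f f' φ R) :
    CC S S' f f' φ R (Sys.bd ρ) (Sys.bd (pl f' f ρ)) := by
  refine ⟨h, ⟨fun a ha _ => ?_, fun a ha _ => ?_⟩, o.cl,
    (h.cell o.cl (D := f ⁻¹' insert (f R) (Sys.bd ρ)) fun _ => id).mono ?_⟩
  · obtain ⟨a, rfl⟩ := o.bd ha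
    exact ⟨a, rfl, fun e => ha ((pl_f a).symm.trans e)⟩
  · obtain ⟨a, rfl⟩ := pl_bd ha
    exact ⟨a, rfl, fun e => ha ((pl_f a).trans e)⟩
  · rintro a (rfl | ha)
    · exact ⟨R, .inl rfl, rfl⟩
    · obtain ⟨a, rfl⟩ := pl_bd ha
      exact ⟨a, .inr fun e => ha ((pl_f a).trans e), rfl⟩

theorem Out.img (o : Out S f R ρ) (h : LC S S' f f' φ R) (g : S.IsReg ρ) :
    S'.U (pl f' f ρ) = φ '' S.U ρ := (o.cc h).img ⟨g.piece_bd, o.sub⟩

/-- an active region is an outer region or lies inside the broken wall -/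
theorem side (g : S.IsReg ρ) (ht : t ∈ S.Par) (h1 : t (f R) = 1) (z : ∀ a ∉ range f, t a = 0)
    (c : cg S ρ k t ≠ 0) : Out S f R ρ ∨ S.U ρ ⊆ (S.w (f R)).sd false := by
  have c := (cg_ne_zero.1 c).1
  obtain ⟨_ | _, hb⟩ := side_ex g ht c h1
  exacts [.inr hb, .inl ⟨fun a ha => by_contra fun n => (cf_ne_zero.1 c).1 a ha (z a n),
    ht.2.mono (insert_subset (by simp [h1]) (cf_ne_zero.1 c).1), hb⟩]

end sys

/-! ### reindexed families -/

/-- other indices and constant factors -/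
def rx {W W' X lam h A' : Type} {r n : ℕ} (t : Tr W' X lam h A' r n) (g : W → W') (c : W → ℝ) :
    Tr W X lam h A' r n :=
  ⟨fun w => t.tw (g w), fun w s => c w * t.co (g w) s, fun l w => t.tc l (g w),
    fun l w s => c w * t.cc l (g w) s⟩

variable {Wi W₀ W₁ : Type} {X : Mf 4} {A κ lam : Type} [Fintype A] [Fintype κ] [Fintype lam]
  [DecidableEq lam] {M : Mark X A κ} {W : World M} {N : ML M lam} {Λ : Lns W N}
  {A' h : Type} [Fintype A'] [DecidableEq A'] [Fintype h] {r n : ℕ} {J : Job Wi Λ A' h r n}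
  {t : Tr W₁ X.M (lam ⊕ lam) h A' r n} (g : W₀ → W₁) (c : W₀ → ℝ)

theorem tok_rx (k : J.TOK t) : J.TOK (rx t g c) :=
  ⟨fun w => (k.tw (g w)).imp fun _ e => ⟨e.1, e.2.imp fun _ e => ⟨e.1, fun σ a s b d x p q l =>
      mul_eq_zero_of_right _ (e.2 σ a s b d x p q l)⟩⟩, fun w => contDiff_const.mul (k.co (g w)),
    fun i w => (k.tc i (g w)).imp fun _ e => ⟨e.1, e.2.imp fun _ e => ⟨e.1, fun σ a s b d x p q l =>
      mul_eq_zero_of_right _ (e.2 σ a s b d x p q l)⟩⟩, fun i w => contDiff_const.mul (k.cc i (g w))⟩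

theorem tloc_rx {sh : Set A'} (k : J.TLoc sh t) : J.TLoc sh (rx t g c) :=
  ⟨fun σ a s b s' d c₀ e e' P p q i l w => congrArg (c w * ·) (k.cc σ a s b s' d c₀ e e' P p q i l (g w)),
    fun σ a s b s' d c₀ e e' P p q w =>
      (k.co σ a s b s' d c₀ e e' P p q (g w)).imp_left (congrArg (c w * ·)), fun w => k.bas (g w)⟩

end Crest.Agent.X212.Twf19
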