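import Crest.Agent.X212.Twf19.Cg
import Crest.Agent.X212.Nat75.Cx

/-!
# Row 212, twins (helper19): the outer standard terms are pushed along a partial correspondence
-/

set_option autoImplicit false
set_option linter.unusedSectionVars false
noncomputable section
open scoped Manifold ContDiff Topology Matrix
open Set Function Classical

namespace Crest.Agent.X212.Twf19
open An M G75 Jb7 Wrd81 Ins26 Nat75 Hp13.Tw
open An.Job (cl sp)
open Line51 (rl Ln)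

variable {κ lam : Type} [Fintype κ] [Fintype lam] [DecidableEq lam] {Lm : LM κ lam}

section sw
variable {X : Mf 4} {A h : Type} [Fintype A] {M : Mark X A κ} {ok : Reg A → Prop} {nb : h → Set X.M}
  {r n k : ℕ} {ρ : Reg A} {τ : Tm X.M lam r n} {t : Tc X.M lam r} {i l : h}

theorem co_fld (v : Val M ok ρ τ) : Sw.co M ok (.fld ρ τ k : Sw _ _ h _ r n) = cg M.sys ρ k := if_pos v
theorem tw_fld (v : Val M ok ρ τ) : Sw.tw M ok (.fld ρ τ k : Sw _ _ h _ r n) = τ := if_pos v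
theorem co_cut : Sw.co M ok (.cut l ρ t k : Sw _ _ h _ r n) = 0 := rfl
theorem cc_fld : Sw.cc M nb i (.fld ρ τ k : Sw _ _ h _ r n) = 0 := rfl
theorem cc_cut (v : ValC M nb i ρ t) : Sw.cc M nb i (.cut i ρ t k : Sw _ _ h _ r n) = cg M.sys ρ k :=
  if_pos ⟨rfl, v⟩
theorem tc_cut (v : ValC M nb i ρ t) : Sw.tc M nb i (.cut i ρ t k : Sw _ _ h _ r n) = t :=
  if_pos ⟨rfl, v⟩
theorem cc_ne (e : l ≠ i) : Sw.cc M nb i (.cut l ρ t k : Sw _ _ h _ r n) = 0 := if_neg fun c => e c.1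

end sw

/-- a symmetric correspondence of scenes outside the wall `R` -/
structure Px (S S' : Scene Lm) (A₀ L₀ : Type) where
  I : MId S.M S'.M A₀
  R : A₀
  ι : L₀ ↪ S.L
  ι' : L₀ ↪ S'.L
  w : L₀ → S.X.M → Matrix lam lam ℂ
  lc : LC S.M.sys S'.M.sys I.f I.f' I.ψ.toPartialEquiv R
  lid : ∀ i, LId (S.N (ι i)) (S'.N (ι' i)) I ((S.M.sys.w (I.f R)).sd true) (w i)
  ls : ∀ a, I.f' a ∈ S'.ls ↔ I.f a ∈ S.ls
  lo : ∀ a, I.f a ∈ S.ls → (S.M.sys.w (I.f a)).sd false ⊆ (S.M.sys.w (I.f R)).sd true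
  lo' : ∀ a, I.f' a ∈ S'.ls → (S'.M.sys.w (I.f' a)).sd false ⊆ (S'.M.sys.w (I.f' R)).sd true
  fl : ∀ a, I.f a ∈ S.ls → ∀ i, ∃ i₁, ι i₁ = S.fl (I.f a) (ι i) ∧ ι' i₁ = S'.fl (I.f' a) (ι' i) ∧
    EqOn (w i₁) (w i) ((S.M.sys.w (I.f R)).sd true ∩ (S.M.sys.w (I.f a)).sd true)

/-- the indices of the standard terms -/
abbrev SW (S : Scene Lm) (r n : ℕ) : Type := Sw S.X.M S.A S.ls (lam ⊕ lam) r n

namespace Px
variable {S S' : Scene Lm} {A₀ L₀ : Type} [Fintype A₀] (x : Px S S' A₀ L₀) {j N r n : ℕ} {T : ℝ}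

/-- the outside -/
abbrev V : Set S.X.M := (S.M.sys.w (x.I.f x.R)).sd true

theorem back {y : S'.X.M} {a : A₀} {b : Bool} (h : y ∈ (S'.M.sys.w (x.I.f' x.R)).sd true)
    (k : y ∈ (S'.M.sys.w (x.I.f' a)).sd b) : x.I.ψ.symm y ∈ (S.M.sys.w (x.I.f a)).sd b :=
  (x.I.symm.sd a b y (x.lc.V' h)).2 k

theorem img : x.I.ψ '' x.V = (S'.M.sys.w (x.I.f' x.R)).sd true :=
  Subset.antisymm (image_subset_iff.2 fun y h => (x.I.sd _ _ y (x.lc.V h)).2 h)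
    fun _ h => ⟨_, x.back h h, x.I.ψ.right_inv (x.lc.V' h)⟩

/-- the inverse -/
def symm : Px S' S A₀ L₀ where
  I := x.I.symm
  R := x.R
  ι := x.ι'
  ι' := x.ι
  w i y := (x.w i (x.I.ψ.symm y))ᴴ
  lc := ⟨x.lc.sub', x.lc.sub, x.I.symm.sd, fun a _ => Met55.mem_band x.I.symm a, x.lc.V', x.lc.V⟩
  lid i := x.img ▸ (x.lid i).symm
  ls a := (x.ls a).symm
  lo := x.lo'
  lo' := x.lo
  fl a h i := let ⟨i₁, h1, h2, h3⟩ := x.fl a ((x.ls a).1 h) i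
    ⟨i₁, h2, h1, fun _ hy => congrArg (·ᴴ) (h3 ⟨x.back hy.1 hy.1, x.back hy.1 hy.2⟩)⟩

/-- the transport of data -/
def tp (i : L₀) : Tp S.X.M S'.X.M (lam ⊕ lam) (lam ⊕ lam) :=
  Tp.of x.I.ψ.toPartialEquiv fun y => rl (x.w i y)

theorem tp_in (i : L₀) {Ω} (h : Ω ⊆ x.V) : (x.tp i).In S.X.I S'.X.I Ω (x.I.ψ '' Ω) where
  p := mapsTo_image _ _
  f := (Tp.in_of (v := fun _ => (0 : CL (Eu lam) (Eu lam))) x.I.ψ contMDiffOn_const (h.trans x.lc.V)).f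
  s g hg := by
    obtain ⟨h1, h2, h3⟩ := Tp.push x.I.ψ (g := fun y => rl (x.w i y) (g y)) hg.hcs
      (hg.sub.trans (h.trans x.lc.V))
      (fun y hy => by rw [image_eq_zero_of_notMem_tsupport hy, map_zero]) fun y _ => by
        by_cases k : y ∈ tsupport g
        · exact ((Line51.fsm_rl ((x.lid i).uni.sm y (h (hg.sub k)))).clm_apply (hg.sm y)).contMDiffWithinAt
        · exact ((contMDiffAt_const (c := 0)).congr_of_eventuallyEq
            ((notMem_tsupport_iff_eventuallyEq.1 k).mono fun z e => by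
              simp only [e, Pi.zero_apply, map_zero])).contMDiffWithinAt
    exact ⟨h1, h2, h3.trans (image_mono hg.sub)⟩

theorem tp_rel (i : L₀) : (x.tp i).Rel x.V fun y => rl (x.w i y) := Tp.rel_of _ x.lc.V

theorem tp_relI (i : L₀) : RelI (x.symm.tp i) x.V x.I.ψ fun y => rl (x.w i y) where
  f g y hy := (indicator_of_mem (x.lc.V hy) (g ∘ x.I.ψ)).symm
  s g y hy := by
    have e : (x.symm.tp i).s g y = rl (x.w i y)ᴴ (g (x.I.ψ y)) :=
      (indicator_of_mem (x.lc.V hy) fun y => rl (x.w i (x.I.ψ.symm (x.I.ψ y)))ᴴ (g (x.I.ψ y))).trans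
        (by rw [show x.I.ψ.symm (x.I.ψ y) = y from x.I.ψ.left_inv (x.lc.V hy)])
    have k := (x.lid i).uni.iso y hy
    rw [e, ← Line51.rl_ct, ← ContinuousLinearMap.comp_apply, ← ContinuousLinearMap.comp_apply,
      ← Line51.rl_comp, ← Line51.rl_comp, k.src, k.ct_left]

/-- the pushed indices -/
def pw (i : L₀) : SW S r n → SW S' r n
  | .fld ρ τ k => .fld (pl x.I.f' x.I.f ρ) ((x.tp i).tm τ) k
  | .row a b c => .row a b c
  | .cut l ρ t k => if h : ∃ a, x.I.f a = l then .cut ⟨x.I.f' h.choose, (x.ls _).2 (h.choose_spec.symm ▸ l.2 :)⟩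
      (pl x.I.f' x.I.f ρ) ((x.tp i).tc t) k else .fld (top _) z0 0

theorem pw_fld (i : L₀) (ρ τ k) : x.pw i (.fld ρ τ k : SW S r n) =
    .fld (pl x.I.f' x.I.f ρ) ((x.tp i).tm τ) k := rfl

theorem pw_row (i : L₀) (a b c) : x.pw i (.row a b c : SW S r n) = .row a b c := rfl

theorem pw_cut (i : L₀) {a : A₀} (h : x.I.f a ∈ S.ls) (ρ t k) : x.pw i (.cut ⟨_, h⟩ ρ t k : SW S r n) =
    .cut ⟨x.I.f' a, (x.ls a).2 h⟩ (pl x.I.f' x.I.f ρ) ((x.tp i).tc t) k := by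
  have e : ∃ b, x.I.f b = x.I.f a := ⟨a, rfl⟩
  refine (dif_pos e).trans ?_
  simp only [x.I.f.injective e.choose_spec]

/-- outer regions -/
abbrev O (ρ : Reg S.A) : Prop := Out S.M.sys x.I.f x.R ρ

/-- the ratio of the coefficients -/
abbrev kk (ρ : Reg S.A) (k : ℕ) : ℝ := K S.M.sys x.I.f ρ k / K S'.M.sys x.I.f' (pl x.I.f' x.I.f ρ) k

/-- the factors -/
def sc : SW S r n → ℝ
  | .fld ρ τ k => if x.O ρ ∧ Val S.M (okL S) ρ τ then x.kk ρ k else 0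
  | .row .. => 1
  | .cut l ρ t k => if x.O ρ ∧ ValC S.M S.nb l ρ t ∧ ∃ a, x.I.f a = l then x.kk ρ k else 0

variable {x} {i i₁ : L₀} {ρ : Reg S.A} {a : A₀} {t : S.A → ℝ} {t' : S'.A → ℝ}

theorem img_U (o : x.O ρ) (g : S.M.sys.IsReg ρ) :
    S'.M.sys.U (pl x.I.f' x.I.f ρ) = x.I.ψ '' S.M.sys.U ρ :=
  have := S.M.con; have := S'.M.con; o.img x.lc g

theorem val_pw (i : L₀) {τ : Tm S.X.M (lam ⊕ lam) r n} (h : x.O ρ ∧ Val S.M (okL S) ρ τ) :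
    Val S'.M (okL S') (pl x.I.f' x.I.f ρ) ((x.tp i).tm τ) := by
  have := S.M.con; have := S'.M.con
  refine ⟨fun l hl e => ?_, x.lc.isReg h.1.bd h.2.reg,
    img_U h.1 h.2.reg ▸ (x.tp_in i h.1.sub).tm h.2.tm, bas_tm h.2.bas, ?_⟩
  · obtain ⟨a, rfl⟩ := pl_bd (Sys.mem_bd_of e)
    exact h.2.ok _ ((x.ls a).1 hl) ((pl_f a).symm.trans e)
  · have := h.2.zc
    cases τ with
    | anti => exact let ⟨_, e⟩ := this; ⟨_, congrArg (x.tp i).co e⟩
    | adj => exact let ⟨_, e⟩ := this; ⟨_, congrArg (x.tp i).co e⟩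
    | _ => exact this

theorem valC_pw (i : L₀) {h : x.I.f a ∈ S.ls} {h'} {τ : Tc S.X.M (lam ⊕ lam) r} (o : x.O ρ)
    (v : ValC S.M S.nb ⟨_, h⟩ ρ τ) :
    ValC S'.M S'.nb ⟨x.I.f' a, h'⟩ (pl x.I.f' x.I.f ρ) ((x.tp i).tc τ) :=
  have := S.M.con; have := S'.M.con
  ⟨x.lc.isReg o.bd v.reg, fun _ k => img_U o v.reg ▸ ⟨_, v.nb (x.back (x.lo' a h' k) k),
    x.I.ψ.right_inv (x.lc.V' (x.lo' a h' k))⟩, img_U o v.reg ▸ (x.tp_in i o.sub).xi v.xi⟩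

section key
variable (p : Mp x.I.f x.I.f' t t') (ht : t ∈ S.M.sys.Par) (h1 : t (x.I.f x.R) = 1) (i : L₀)
include p ht h1

theorem co_key (w : SW S r n) :
    (x.sc w * (x.pw i w).co S'.M (okL S') t' = w.co S.M (okL S) t ∧ (w.co S.M (okL S) t ≠ 0 →
      (x.pw i w).tw S'.M (okL S') = (x.tp i).tm (w.tw S.M (okL S)))) ∨
    (w.co S.M (okL S) t = 0 ∨ (w.tw S.M (okL S)).Van x.V) ∧ x.sc w = 0 := by
  have := S.M.con; have := S'.M.con
  cases w with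
  | fld ρ τ k =>
    by_cases v : Val S.M (okL S) ρ τ
    · by_cases o : x.O ρ
      · simp only [sc, pw, Sw.co, Sw.tw, if_pos v, if_pos (And.intro o v), if_pos (val_pw i ⟨o, v⟩)]
        exact .inl ⟨cg_pl x.lc o.bd p, fun _ => trivial⟩
      · simp only [sc, Sw.co, Sw.tw, if_pos v]
        exact .inr ⟨or_iff_not_imp_left.2 fun c => van_of_in v.tm v.zc (disjoint_left.2 fun _ k =>
          Wall.not_mem_sd _ ((side v.reg ht h1 p.z c).resolve_left o k)), if_neg fun k => o k.1⟩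
    · exact .inr ⟨.inl (congrFun (if_neg v) t), if_neg fun k => v k.2⟩
  | row => exact .inl ⟨one_mul _, fun _ => rfl⟩
  | cut l ρ τ k =>
    refine .inl ⟨?_, fun c => (c rfl).elim⟩
    by_cases h : ∃ a, x.I.f a = l
    · rw [pw, dif_pos h]; exact mul_zero _
    · exact mul_eq_zero_of_left (if_neg fun k => h k.2.2) _

theorem cc_key (h : x.I.f a ∈ S.ls) (h' : x.I.f' a ∈ S'.ls) (w : SW S r n) :
    x.sc w * (x.pw i w).cc S'.M S'.nb ⟨_, h'⟩ t' = w.cc S.M S.nb ⟨_, h⟩ t ∧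
      (w.cc S.M S.nb ⟨_, h⟩ t ≠ 0 →
        (x.pw i w).tc S'.M S'.nb ⟨_, h'⟩ = (x.tp i).tc (w.tc S.M S.nb ⟨_, h⟩)) := by
  have := S.M.con; have := S'.M.con
  cases w with
  | fld => exact ⟨mul_zero _, fun c => (c rfl).elim⟩
  | row => exact ⟨mul_zero _, fun c => (c rfl).elim⟩
  | cut l ρ τ k =>
    by_cases v : l = ⟨_, h⟩ ∧ ValC S.M S.nb ⟨_, h⟩ ρ τ
    · obtain ⟨rfl, v⟩ := v
      by_cases o : x.O ρ
      · rw [show x.sc (.cut ⟨_, h⟩ ρ τ k : SW S r n) = x.kk ρ k from if_pos ⟨o, v, a, rfl⟩, pw_cut]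
        simp only [Sw.cc, Sw.tc, true_and, if_pos v, if_pos (valC_pw i o v)]
        exact ⟨cg_pl x.lc o.bd p, fun _ => trivial⟩
      · have c : cg S.M.sys ρ k t = 0 := by_contra fun c => let ⟨_, hy⟩ := nb_ne ⟨_, h⟩
          Wall.not_mem_sd _ ((side v.reg ht h1 p.z c).resolve_left o (v.nb hy)) (x.lo a h hy)
        simp only [sc, Sw.cc, true_and, if_pos v, c, if_neg fun k : x.O ρ ∧ _ => o k.1]
        exact ⟨zero_mul _, fun c => (c rfl).elim⟩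
    · have c : Sw.cc S.M S.nb ⟨_, h⟩ (.cut l ρ τ k : SW S r n) t = 0 := congrFun (if_neg v) t
      refine ⟨.trans ?_ c.symm, fun e => (e c).elim⟩
      by_cases u : x.O ρ ∧ ValC S.M S.nb l ρ τ ∧ ∃ a, x.I.f a = l
      · obtain ⟨l, hl⟩ := l
        obtain ⟨-, u, b, rfl : _ = l⟩ := u
        rw [pw_cut]
        refine mul_eq_zero_of_right _ (congrFun (if_neg fun e => ?_) t')
        obtain rfl := x.I.f'.injective (congrArg Subtype.val e.1)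
        exact v ⟨rfl, u⟩
      · exact mul_eq_zero_of_left (if_neg u) _

end key

section twin
variable (ok : S'.OK) (h' : x.I.f' a ∈ S'.ls) (ht : t' ∈ S'.M.sys.Par) (h1 : t' (x.I.f' a) = 1)
  (e : EqOn (x.w i₁) (x.w i) (x.V ∩ (S.M.sys.w (x.I.f a)).sd true))

include e in
theorem w_eq (o : x.O ρ) (s : S'.M.sys.U (pl x.I.f' x.I.f ρ) ⊆ (S'.M.sys.w (x.I.f' a)).sd true) :
    EqOn (fun y => rl (x.w i₁ y)) (fun y => rl (x.w i y)) (S.M.sys.U ρ) := fun y hy =>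
  have := S.M.con; have := S'.M.con
  have m := x.lc.V (o.sub hy)
  congrArg rl (e ⟨o.sub hy, (x.I.sd a true y m).1 (s ((x.lc.U o.bd m).2 hy))⟩)

include ok h' ht h1 e

theorem twin_co (w : SW S r n) (z : x.sc w ≠ 0) :
    (x.pw i₁ w).co S'.M (okL S') t' = (x.pw i w).co S'.M (okL S') t' ∧
      ((x.pw i w).co S'.M (okL S') t' ≠ 0 →
        (x.pw i₁ w).tw S'.M (okL S') = (x.pw i w).tw S'.M (okL S')) := by
  have := S'.M.con
  cases w with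
  | fld ρ τ k =>
    have u : x.O ρ ∧ Val S.M (okL S) ρ τ := by_contra fun u => z (if_neg u)
    have v := val_pw i u
    rw [pw_fld, pw_fld, co_fld v, co_fld (val_pw i₁ u), tw_fld v, tw_fld (val_pw i₁ u)]
    exact ⟨rfl, fun c => tm_congr (w_eq e u.1 (side_of_cf (b := false) v.reg ht
      (cg_ne_zero.1 c).1 h1 (v.ok _ h') (ok.lsi _ h'))) u.2.tm⟩
  | row => rw [pw_row, pw_row]; exact ⟨rfl, fun _ => rfl⟩
  | cut l ρ τ k =>
    obtain ⟨l, hl⟩ := l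
    obtain ⟨-, -, b, rfl : _ = l⟩ : x.O ρ ∧ ValC S.M S.nb ⟨l, hl⟩ ρ τ ∧ ∃ a, x.I.f a = l :=
      by_contra fun u => z (if_neg u)
    rw [pw_cut, pw_cut, co_cut, co_cut]
    exact ⟨rfl, fun c => (c rfl).elim⟩

theorem twin_cc (w : SW S r n) (z : x.sc w ≠ 0) (l : S'.ls) (k : l ≠ ⟨_, h'⟩) :
    (x.pw i₁ w).cc S'.M S'.nb l t' = (x.pw i w).cc S'.M S'.nb l t' ∧
      ((x.pw i w).cc S'.M S'.nb l t' ≠ 0 →
        (x.pw i₁ w).tc S'.M S'.nb l = (x.pw i w).tc S'.M S'.nb l) := by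
  have := S'.M.con
  cases w with
  | fld => rw [pw_fld, pw_fld, cc_fld, cc_fld]; exact ⟨rfl, fun c => (c rfl).elim⟩
  | row => rw [pw_row, pw_row]; exact ⟨rfl, fun _ => rfl⟩
  | cut l₁ ρ τ k₁ =>
    obtain ⟨l₁, hl⟩ := l₁
    obtain ⟨o, u, b, rfl : _ = l₁⟩ : x.O ρ ∧ ValC S.M S.nb ⟨l₁, hl⟩ ρ τ ∧ ∃ a, x.I.f a = l₁ :=
      by_contra fun u => z (if_neg u)
    rw [pw_cut, pw_cut]
    by_cases c : ⟨x.I.f' b, (x.ls b).2 hl⟩ = l
    · subst c
      have v := valC_pw (h' := (x.ls b).2 hl) i o u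
      rw [cc_cut v, cc_cut (valC_pw i₁ o u), tc_cut v, tc_cut (valC_pw i₁ o u)]
      refine ⟨rfl, fun c => tc_congr (w_eq e o ?_) u.xi⟩
      obtain ⟨b', s⟩ := side_ex v.reg ht (cg_ne_zero.1 c).1 h1
      obtain ⟨y, hy⟩ := nb_ne (⟨x.I.f' b, (x.ls b).2 hl⟩ : S'.ls)
      exact (S'.M.sys.w _).sd_inj (s (v.nb hy)) (nb_out ok k hy) ▸ s
    · rw [cc_ne c, cc_ne c]; exact ⟨rfl, fun c => (c rfl).elim⟩

end twin

variable (x) in
/-- the outer terms of `S` on `S'` -/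
def tr (X : Finset S'.A) (i' : S'.L) : Tr (SW S r n) S'.X.M (lam ⊕ lam) S'.ls (S'.A ⊕ Unit) r n :=
  rx (stdT S' X r n) (extend x.ι' x.pw (fun _ _ => .fld (top _) z0 0) i') x.sc

theorem tr_eq (X : Finset S'.A) (i : L₀) :
    x.tr X (x.ι' i) = rx (stdT S' X r n) (x.pw i) x.sc :=
  congrArg (rx _ · _) (x.ι'.injective.extend_apply _ _ i)

/-- **the family with the outer terms of the twin is in the class** -/
theorem add_ok {F : Fam S' j N} (ok : S'.OK) (hF : F.OK T) (H : ∀ i, (F.sk i).OK)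
    (hK : ∀ i', ∀ σ ∈ F.𝒦 i', i' ∈ range x.ι' ∧ ∀ l ∈ S'.ls, σ (.inl l) ≠ some false → l ∈ range x.I.f') :
    (re F F.𝒦 (x.tr F.X)).OK T := by
  refine re_ok hF (fun _ => subset_rfl) (fun i σ h => (hF.ok i ⟨σ, h⟩).down σ h)
    (fun i _ => let k := tok_rx _ x.sc (stdT_ok (H i)); ⟨k.tw, k.co, k.tc, k.cc⟩)
    (fun i _ => let k := tloc_rx _ x.sc (stdT_loc (H i)); ⟨k.cc, k.co, k.bas⟩)
    (fun i σ h s hs l e w => let k := stdT_van (H i) h hs ok l e _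
      ⟨fun c => k.1 (right_ne_zero_of_mul c), fun l' n c => k.2 l' n (right_ne_zero_of_mul c)⟩)
    fun i' l σ h _ s hs e w => ?_
  obtain ⟨⟨i, rfl⟩, k⟩ := hK i' σ h
  obtain ⟨l, hl⟩ := l
  obtain ⟨a, rfl⟩ := k l hl fun c => zero_ne_one ((hs.1 _ _ c).symm.trans e)
  obtain ⟨i₁, -, k2, k3⟩ := x.fl a ((x.ls a).1 hl) i
  rw [← k2, tr_eq, tr_eq]
  have ht := (th_X (H _) (r := 0) (n := 0)).par σ h s (Job.cl_dom _ hs)
  have h1 : thX S' F.X s (x.I.f' a) = 1 :=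
    (thS_H (notMem_empty _) (.inr (.inl hl))).trans ((rho_eq_one e.le).2 e)
  by_cases z : x.sc w = 0
  · have k : ∀ y : ℝ, x.sc w * y = 0 := fun y => mul_eq_zero_of_left z y
    exact ⟨⟨(k _).trans (k _).symm, fun c => (c (k _)).elim⟩,
      fun _ _ => ⟨(k _).trans (k _).symm, fun c => (c (k _)).elim⟩⟩
  · exact ⟨(twin_co ok hl ht h1 k3 w z).imp (congrArg (x.sc w * ·)) fun k c => k (right_ne_zero_of_mul c),
      fun l n => (twin_cc ok hl ht h1 k3 w z l n).imp (congrArg (x.sc w * ·))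
        fun k c => k (right_ne_zero_of_mul c)⟩

end Px

end Crest.Agent.X212.Twf19
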